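import Mathlib

/-!
# P204: the notions of the final statement

A tangent vector at any point is a vector of the model space `ℝ⁴`, as for `TangentSpace` in Mathlib;
fields are read in the charts through the differentials of the charts and of their inverses.
Kept in a file of its own, free of other imports, and spelled over the model space so that the
statement prints briefly.
-/

namespace Vale.Agent.P204.Public

open scoped Manifold ContDiff

universe u

/-- A field of endomorphisms of the tangent spaces. -/
def EndField (X : Type u) := X → (EuclideanSpace ℝ (Fin 4) →L[ℝ] EuclideanSpace ℝ (Fin 4))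

/-- A field of bilinear forms on the tangent spaces. -/
def BilinField (X : Type u) :=
  X → (EuclideanSpace ℝ (Fin 4) →L[ℝ] EuclideanSpace ℝ (Fin 4) →L[ℝ] ℝ)

/-- The vector `J_x v`. -/
noncomputable def endVal {X : Type u} (J : EndField X) (x : X) (v : EuclideanSpace ℝ (Fin 4)) :
    EuclideanSpace ℝ (Fin 4) :=
  J x v

/-- The number `σ_x (v, w)`. -/
noncomputable def formVal {X : Type u} (σ : BilinField X) (x : X) (v w : EuclideanSpace ℝ (Fin 4)) : ℝ :=
  σ x v w

variable {X : Type u} [TopologicalSpace X] [ChartedSpace (EuclideanSpace ℝ (Fin 4)) X]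

/-- The coordinates in which the chart at `c` is defined. -/
def chartTarget (c : X) : Set (EuclideanSpace ℝ (Fin 4)) := (extChartAt (𝓡 4) c).target

/-- The point with coordinates `p` in the chart at `c`. -/
noncomputable def chartPoint (c : X) (p : EuclideanSpace ℝ (Fin 4)) : X :=
  (extChartAt (𝓡 4) c).symm p

/-- The differential of the chart at `c`, at the point `x`. -/
noncomputable def chartDeriv (c x : X) :
    EuclideanSpace ℝ (Fin 4) →L[ℝ] EuclideanSpace ℝ (Fin 4) :=
  mfderiv (𝓡 4) (𝓡 4) (extChartAt (𝓡 4) c) x

/-- The differential of the inverse of the chart at `c`, at the coordinates `p`. -/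
noncomputable def chartInvDeriv (c : X) (p : EuclideanSpace ℝ (Fin 4)) :
    EuclideanSpace ℝ (Fin 4) →L[ℝ] EuclideanSpace ℝ (Fin 4) :=
  mfderiv (𝓡 4) (𝓡 4) (extChartAt (𝓡 4) c).symm p

/-- A smooth almost complex structure: square minus one, smooth in every chart. -/
def IsAlmostComplexStructure (J : EndField X) : Prop :=
  (∀ x v, endVal J x (endVal J x v) = -v) ∧ ∀ c : X, ∀ v : EuclideanSpace ℝ (Fin 4),
    ContDiffOn ℝ ∞
      (fun p => chartDeriv c (chartPoint c p) (endVal J (chartPoint c p) (chartInvDeriv c p v)))
      (chartTarget c)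

/-- The coefficient of a bilinear field in the chart at `c`. -/
noncomputable def coeff (σ : BilinField X) (c : X) (v w p : EuclideanSpace ℝ (Fin 4)) : ℝ :=
  formVal σ (chartPoint c p) (chartInvDeriv c p v) (chartInvDeriv c p w)

/-- A smooth closed two-form. -/
def IsClosedTwoForm (σ : BilinField X) : Prop :=
  (∀ x v, formVal σ x v v = 0) ∧ ∀ c : X, (∀ v w, ContDiffOn ℝ ∞ (coeff σ c v w) (chartTarget c)) ∧
    ∀ p ∈ chartTarget c, ∀ a b d : EuclideanSpace ℝ (Fin 4),
      fderiv ℝ (coeff σ c b d) p a + fderiv ℝ (coeff σ c d a) p b +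
        fderiv ℝ (coeff σ c a b) p d = 0

/-- `σ` tames `J`. -/
def Tames (σ : BilinField X) (J : EndField X) : Prop :=
  ∀ x v, v ≠ 0 → 0 < formVal σ x v (endVal J x v)

/-- `σ` is invariant under `J`. -/
def IsInvariant (σ : BilinField X) (J : EndField X) : Prop :=
  ∀ x v w, formVal σ x (endVal J x v) (endVal J x w) = formVal σ x v w

/-- `σ` is nondegenerate. -/
def IsNondegenerate (σ : BilinField X) : Prop :=
  ∀ x v, v ≠ 0 → ∃ w, formVal σ x v w ≠ 0

end Vale.Agent.P204.Public
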