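import Mathlib
import Vale.Agent.P204.Public.Defs
import Vale.Agent.P204.General.Audit

/-!
# P204 audit: the public notions are the intrinsic ones
-/

namespace Vale.Agent.P204.Public

open Bundle
open scoped Manifold ContDiff

universe u
variable {X : Type u} [TopologicalSpace X] [ChartedSpace (EuclideanSpace ℝ (Fin 4)) X]

/-- The public notions and the working ones on tangent spaces are the same. -/
theorem public_defs_iff (σ : BilinField X) (J : EndField X) :
    (IsAlmostComplexStructure J ↔ Vale.Agent.P204.IsAlmostComplexStructure (X := X) J) ∧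
      (IsClosedTwoForm σ ↔ Vale.Agent.P204.IsClosedTwoForm (X := X) σ) ∧
      (Tames σ J ↔ TamesJ (X := X) σ J) ∧ (IsInvariant σ J ↔ InvariantJ (X := X) σ J) :=
  ⟨Iff.rfl, Iff.rfl, Iff.rfl, Iff.rfl⟩

/-- An almost complex structure in the public sense is precisely `J² = -1` and a smooth section of
the endomorphism bundle of the tangent bundle. -/
theorem isAlmostComplexStructure_iff_section [IsManifold (𝓡 4) ∞ X] (J : EndField X) :
    IsAlmostComplexStructure J ↔ (∀ x v, endVal J x (endVal J x v) = -v) ∧
      ContMDiff (𝓡 4) ((𝓡 4).prod 𝓘(ℝ, R4 →L[ℝ] R4)) ∞ (Audit.endSection (X := X) J) :=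
  Audit.isAlmostComplexStructure_iff (X := X) J

end Vale.Agent.P204.Public
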