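import Mathlib
import Vale.Agent.P204.Public.Defs
import Vale.Agent.P204.General.Sanity

/-!
# P204: the public notions are satisfied by the standard structure on the model space
-/

open scoped Manifold ContDiff

namespace Vale.Agent.P204.Public

theorem model_structure : IsAlmostComplexStructure (X := R4) (fun _ => stdJ) ∧
    IsClosedTwoForm (X := R4) (fun _ => stdOm) ∧
    Tames (X := R4) (fun _ => stdOm) (fun _ => stdJ) ∧
    IsInvariant (X := R4) (fun _ => stdOm) (fun _ => stdJ) :=
  Vale.Agent.P204.model_structure

end Vale.Agent.P204.Public
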