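import Mathlib
import Vale.Agent.P204.Public.Defs
import Vale.Agent.P204.General.Statement

/-!
# P204: the final statement from the working statement
-/

namespace Vale.Agent.P204.Public

open scoped Manifold ContDiff

universe u

/-- The two spellings agree. -/
theorem of_conjecture (h : Conjecture.{u}) (X : Type u) [TopologicalSpace X] [T2Space X]
    [SecondCountableTopology X] [CompactSpace X] [ConnectedSpace X]
    [ChartedSpace (EuclideanSpace ℝ (Fin 4)) X] [IsManifold (𝓡 4) ∞ X] (J : EndField X)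
    (hJ : IsAlmostComplexStructure J) (ht : ∃ σ, IsClosedTwoForm σ ∧ Tames σ J) :
    ∃ σ : BilinField X, IsClosedTwoForm σ ∧ Tames σ J ∧ IsInvariant σ J ∧ IsNondegenerate σ := by
  obtain ⟨σ, hσ, hσt⟩ := ht
  obtain ⟨τ, h1, h2, h3⟩ := h X J hJ ⟨σ, hσ, hσt⟩
  exact ⟨τ, h1, h2, h3, fun x v hv => ⟨J x v, (h2 x v hv).ne'⟩⟩

end Vale.Agent.P204.Public
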